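import Mathlib

/-!
# A four-term hyperbolic cosine inequality (seat H94)

For real `k ≥ 1` and every real `h`, the combination
`[k - 1] cosh ([2k+3] h) - [k + 3] cosh ([2k+1] h) + [k + 1]^2 cosh (3 h) - [k - 1][k + 3] cosh h`
is nonnegative (square brackets are ordinary brackets here).

Proof: expand in the power series of `cosh`; the coefficient of `h^(2j) / (2j)!` is
`c j = (k-1) (2k+3)^(2j) - (k+3) (2k+1)^(2j) + (k+1)^2 9^j - (k-1)(k+3)`, with `c 0 = 0`, `c 1 = 0` and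
`c (j+2) - 10 c (j+1) + 9 c j = 16 (k-1) k (k+1) (k+2) (k+3) ((2k+3)^(2j) - (2k+1)^(2j)) ≥ 0`,
hence `c (j+1) ≥ 9 c j ≥ 0`.
-/

namespace Vale.Agent.H94

/-- the coefficient of `h^(2j) / (2j)!` -/
noncomputable def coshCoef (k : ℝ) (j : ℕ) : ℝ :=
  (k - 1) * ((2 * k + 3) ^ 2) ^ j - (k + 3) * ((2 * k + 1) ^ 2) ^ j + (k + 1) ^ 2 * 9 ^ j
    - (k - 1) * (k + 3)

theorem coshCoef_zero (k : ℝ) : coshCoef k 0 = 0 := by
  unfold coshCoef; ring

theorem coshCoef_one (k : ℝ) : coshCoef k 1 = 0 := by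
  unfold coshCoef; ring

theorem coshCoef_rec (k : ℝ) (j : ℕ) :
    coshCoef k (j + 2) - 10 * coshCoef k (j + 1) + 9 * coshCoef k j
      = 16 * (k - 1) * k * (k + 1) * (k + 2) * (k + 3)
          * (((2 * k + 3) ^ 2) ^ j - ((2 * k + 1) ^ 2) ^ j) := by
  unfold coshCoef; ring

theorem coshCoef_step (k : ℝ) (hk : 1 ≤ k) (j : ℕ) :
    9 * coshCoef k j ≤ coshCoef k (j + 1) := by
  induction j with
  | zero => rw [coshCoef_zero, coshCoef_one]; norm_num
  | succ j ih =>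
    have h1 := coshCoef_rec k j
    have h2 : ((2 * k + 1) ^ 2) ^ j ≤ ((2 * k + 3) ^ 2) ^ j := by
      apply pow_le_pow_left₀ (by positivity)
      nlinarith
    have h3 : 0 ≤ 16 * (k - 1) * k * (k + 1) * (k + 2) * (k + 3) := by
      have : 0 ≤ k - 1 := by linarith
      positivity
    have h4 : 0 ≤ 16 * (k - 1) * k * (k + 1) * (k + 2) * (k + 3)
          * (((2 * k + 3) ^ 2) ^ j - ((2 * k + 1) ^ 2) ^ j) :=
      mul_nonneg h3 (by linarith)
    linarith

theorem coshCoef_nonneg (k : ℝ) (hk : 1 ≤ k) (j : ℕ) : 0 ≤ coshCoef k j := by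
  induction j with
  | zero => rw [coshCoef_zero]
  | succ j ih => linarith [coshCoef_step k hk j]

theorem hasSum_cosh_scaled (a h : ℝ) :
    HasSum (fun j : ℕ => (a ^ 2) ^ j * (h ^ (2 * j) / ((2 * j).factorial : ℝ)))
      (Real.cosh (a * h)) := by
  have h1 := Real.hasSum_cosh (a * h)
  have h2 : (fun j : ℕ => (a * h) ^ (2 * j) / ((2 * j).factorial : ℝ))
      = fun j : ℕ => (a ^ 2) ^ j * (h ^ (2 * j) / ((2 * j).factorial : ℝ)) := by
    funext j
    rw [mul_pow, pow_mul a 2 j]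
    ring
  rw [h2] at h1
  exact h1

/-- the four-term hyperbolic cosine inequality -/
theorem cosh_four_term_nonneg (k : ℝ) (hk : 1 ≤ k) (h : ℝ) :
    0 ≤ (k - 1) * Real.cosh ((2 * k + 3) * h) - (k + 3) * Real.cosh ((2 * k + 1) * h)
        + (k + 1) ^ 2 * Real.cosh (3 * h) - (k - 1) * (k + 3) * Real.cosh h := by
  have s1 := (hasSum_cosh_scaled (2 * k + 3) h).mul_left (k - 1)
  have s2 := (hasSum_cosh_scaled (2 * k + 1) h).mul_left (k + 3)
  have s3 := (hasSum_cosh_scaled 3 h).mul_left ((k + 1) ^ 2)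
  have s4 := (hasSum_cosh_scaled 1 h).mul_left ((k - 1) * (k + 3))
  have s := ((s1.sub s2).add s3).sub s4
  rw [one_mul] at s
  refine s.nonneg ?_
  intro j
  have hc := coshCoef_nonneg k hk j
  have hp : 0 ≤ h ^ (2 * j) / ((2 * j).factorial : ℝ) := by
    have : 0 ≤ h ^ (2 * j) := by
      rw [pow_mul]; positivity
    positivity
  have e : (k - 1) * (((2 * k + 3) ^ 2) ^ j * (h ^ (2 * j) / ((2 * j).factorial : ℝ)))
      - (k + 3) * (((2 * k + 1) ^ 2) ^ j * (h ^ (2 * j) / ((2 * j).factorial : ℝ)))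
      + (k + 1) ^ 2 * (((3 : ℝ) ^ 2) ^ j * (h ^ (2 * j) / ((2 * j).factorial : ℝ)))
      - (k - 1) * (k + 3) * (((1 : ℝ) ^ 2) ^ j * (h ^ (2 * j) / ((2 * j).factorial : ℝ)))
      = coshCoef k j * (h ^ (2 * j) / ((2 * j).factorial : ℝ)) := by
    unfold coshCoef
    have e9 : ((3 : ℝ) ^ 2) ^ j = 9 ^ j := by norm_num
    rw [e9, one_pow, one_pow]
    ring
  rw [e]
  exact mul_nonneg hc hp

end Vale.Agent.H94
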