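import Vale.Agent.H94.CoshIneq

/-!
# The polynomial form of the four-term inequality (seat H94)

`gammaPoly τ x k = (1+τ)(1-τ)^2 x k^2 + (1-τ)(1+2x-2τ^2 x-τ^2 x^2) k - (1-x)(1+3τ-3τ^2 x-τ^3 x)`.
With `τ = exp (-2h)` and `x = exp (-2kh)` it equals `2 exp (-(2k+3)h)` times the four-term
hyperbolic cosine combination of `CoshIneq.lean`, hence it is nonnegative for `k ≥ 1`.
Consequently, for `0 < x ≤ τ < 1` and `k = log x / log τ` one has `gammaPoly τ x k ≥ 0`.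
-/

namespace Vale.Agent.H94

/-- the polynomial `Γ` -/
noncomputable def gammaPoly (τ x k : ℝ) : ℝ :=
  (1 + τ) * (1 - τ) ^ 2 * x * k ^ 2 + (1 - τ) * (1 + 2 * x - 2 * τ ^ 2 * x - τ ^ 2 * x ^ 2) * k
    - (1 - x) * (1 + 3 * τ - 3 * τ ^ 2 * x - τ ^ 3 * x)

theorem gammaPoly_identity (a b k : ℝ) (ha : a ≠ 0) (hb : b ≠ 0) :
    gammaPoly (a ^ 2)⁻¹ (b ^ 2)⁻¹ k
      = 2 * (b ^ 2 * a ^ 3)⁻¹ *
        ((k - 1) * ((b ^ 2 * a ^ 3 + (b ^ 2 * a ^ 3)⁻¹) / 2)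
          - (k + 3) * ((b ^ 2 * a + (b ^ 2 * a)⁻¹) / 2)
          + (k + 1) ^ 2 * ((a ^ 3 + (a ^ 3)⁻¹) / 2)
          - (k - 1) * (k + 3) * ((a + a⁻¹) / 2)) := by
  unfold gammaPoly
  field_simp
  ring

theorem gammaPoly_exp (k h : ℝ) :
    gammaPoly (Real.exp (-(2 * h))) (Real.exp (-(2 * k * h))) k
      = 2 * Real.exp (-((2 * k + 3) * h)) *
        ((k - 1) * Real.cosh ((2 * k + 3) * h) - (k + 3) * Real.cosh ((2 * k + 1) * h)
          + (k + 1) ^ 2 * Real.cosh (3 * h) - (k - 1) * (k + 3) * Real.cosh h) := by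
  have ha : Real.exp h ≠ 0 := (Real.exp_pos h).ne'
  have hb : Real.exp (k * h) ≠ 0 := (Real.exp_pos _).ne'
  have e1 : Real.exp ((2 * k + 3) * h) = Real.exp (k * h) ^ 2 * Real.exp h ^ 3 := by
    rw [← Real.exp_nat_mul, ← Real.exp_nat_mul, ← Real.exp_add]
    congr 1
    push_cast
    ring
  have e2 : Real.exp ((2 * k + 1) * h) = Real.exp (k * h) ^ 2 * Real.exp h := by
    rw [← Real.exp_nat_mul, ← Real.exp_add]
    congr 1
    push_cast
    ring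
  have e3 : Real.exp (3 * h) = Real.exp h ^ 3 := by
    rw [← Real.exp_nat_mul]
    congr 1
  have e4 : Real.exp (-(2 * h)) = (Real.exp h ^ 2)⁻¹ := by
    rw [Real.exp_neg, ← Real.exp_nat_mul]
    congr 2
  have e5 : Real.exp (-(2 * k * h)) = (Real.exp (k * h) ^ 2)⁻¹ := by
    rw [Real.exp_neg, ← Real.exp_nat_mul]
    congr 2
    push_cast
    ring
  rw [e4, e5, gammaPoly_identity _ _ k ha hb]
  rw [Real.cosh_eq, Real.cosh_eq, Real.cosh_eq, Real.cosh_eq]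
  rw [Real.exp_neg ((2 * k + 3) * h), Real.exp_neg ((2 * k + 1) * h), Real.exp_neg (3 * h),
    Real.exp_neg h, e1, e2, e3]

/-- `Γ ≥ 0` in exponential coordinates -/
theorem gammaPoly_exp_nonneg (k h : ℝ) (hk : 1 ≤ k) :
    0 ≤ gammaPoly (Real.exp (-(2 * h))) (Real.exp (-(2 * k * h))) k := by
  rw [gammaPoly_exp]
  exact mul_nonneg (mul_nonneg (by norm_num) (Real.exp_pos _).le) (cosh_four_term_nonneg k hk h)

/-- `Γ ≥ 0` for `x = τ ^ k`, `0 < τ`, `1 ≤ k` -/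
theorem gammaPoly_rpow_nonneg (τ k : ℝ) (hτ : 0 < τ) (hk : 1 ≤ k) :
    0 ≤ gammaPoly τ (τ ^ k) k := by
  have h1 := gammaPoly_exp_nonneg k (-(Real.log τ) / 2) hk
  have e1 : Real.exp (-(2 * (-(Real.log τ) / 2))) = τ := by
    rw [show -(2 * (-(Real.log τ) / 2)) = Real.log τ by ring, Real.exp_log hτ]
  have e2 : Real.exp (-(2 * k * (-(Real.log τ) / 2))) = τ ^ k := by
    rw [Real.rpow_def_of_pos hτ]
    congr 1
    ring
  rw [e1, e2] at h1
  exact h1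

/-- `Γ ≥ 0` for `0 < x ≤ τ < 1` and `k = log x / log τ` -/
theorem gammaPoly_log_nonneg (τ x : ℝ) (hx : 0 < x) (hxτ : x ≤ τ) (hτ : τ < 1) :
    0 ≤ gammaPoly τ x (Real.log x / Real.log τ) := by
  have hτ0 : 0 < τ := lt_of_lt_of_le hx hxτ
  have hlτ : Real.log τ < 0 := Real.log_neg hτ0 hτ
  have hlx : Real.log x ≤ Real.log τ := Real.log_le_log hx hxτ
  have hk : 1 ≤ Real.log x / Real.log τ := by
    rw [le_div_iff_of_neg hlτ]
    linarith
  have h1 := gammaPoly_rpow_nonneg τ (Real.log x / Real.log τ) hτ0 hk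
  have e : τ ^ (Real.log x / Real.log τ) = x := by
    rw [Real.rpow_def_of_pos hτ0, mul_div_cancel₀ _ hlτ.ne, Real.exp_log hx]
  rw [e] at h1
  exact h1

end Vale.Agent.H94
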