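import Mathlib

/-!
# Hoelder's inequality for a weighted sum of integrals (seat H94)

For measure spaces `Om N` (`N : ℕ`), weights `c N : ℝ≥0∞`, finitely many families of
a.e.-measurable functions `f i N : Om N → ℝ≥0∞` and exponents `p i ≥ 0` with `∑ p i = 1`:
`∑' N, c N * ∫⁻ x, ∏ i, f i N x ^ p i ≤ ∏ i, (∑' N, c N * ∫⁻ x, f i N x) ^ p i`.

Proof: Hoelder with several functions on each `Om N`, then the same inequality on `ℕ` with the
counting measure, applied to `N ↦ c N * ∫⁻ f i N` (the weights recombine since `∑ p i = 1`).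
-/

namespace Vale.Agent.H94

open MeasureTheory
open scoped ENNReal

theorem ennreal_prod_rpow_const {I : Type*} (s : Finset I) (c : ℝ≥0∞) (p : I → ℝ)
    (hp0 : ∀ i ∈ s, 0 ≤ p i) : ∏ i ∈ s, c ^ p i = c ^ ∑ i ∈ s, p i := by
  classical
  induction s using Finset.induction with
  | empty => simp
  | insert a s ha ih =>
    rw [Finset.prod_insert ha, Finset.sum_insert ha,
      ih (fun i hi => hp0 i (Finset.mem_insert_of_mem hi)),
      ENNReal.rpow_add_of_nonneg _ _ (hp0 a (Finset.mem_insert_self a s))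
        (Finset.sum_nonneg fun i hi => hp0 i (Finset.mem_insert_of_mem hi))]

/-- Hoelder's inequality with several functions for series with weights. -/
theorem tsum_holder {I : Type*} (s : Finset I) (c : ℕ → ℝ≥0∞) (A : I → ℕ → ℝ≥0∞)
    (p : I → ℝ) (hp : ∑ i ∈ s, p i = 1) (hp0 : ∀ i ∈ s, 0 ≤ p i) :
    ∑' N, c N * ∏ i ∈ s, A i N ^ p i ≤ ∏ i ∈ s, (∑' N, c N * A i N) ^ p i := by
  have h1 : ∀ N, c N * ∏ i ∈ s, A i N ^ p i = ∏ i ∈ s, (c N * A i N) ^ p i := by
    intro N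
    have h2 : ∀ i ∈ s, (c N * A i N) ^ p i = c N ^ p i * A i N ^ p i :=
      fun i hi => ENNReal.mul_rpow_of_nonneg _ _ (hp0 i hi)
    rw [Finset.prod_congr rfl h2, Finset.prod_mul_distrib, ennreal_prod_rpow_const s (c N) p hp0,
      hp, ENNReal.rpow_one]
  have h3 := ENNReal.lintegral_prod_norm_pow_le (μ := (Measure.count : Measure ℕ)) s
    (f := fun i N => c N * A i N) (fun i _ => (Measurable.of_discrete).aemeasurable) hp hp0
  simp only [lintegral_count] at h3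
  calc ∑' N, c N * ∏ i ∈ s, A i N ^ p i = ∑' N, ∏ i ∈ s, (c N * A i N) ^ p i := by
        exact tsum_congr h1
    _ ≤ ∏ i ∈ s, (∑' N, c N * A i N) ^ p i := h3

/-- Hoelder's inequality with several functions for a weighted sum of integrals. -/
theorem tsum_lintegral_holder {I : Type*} (s : Finset I) {Om : ℕ → Type*}
    [∀ N, MeasurableSpace (Om N)] (m : ∀ N, Measure (Om N)) (c : ℕ → ℝ≥0∞)
    (f : I → ∀ N, Om N → ℝ≥0∞) (hf : ∀ i ∈ s, ∀ N, AEMeasurable (f i N) (m N))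
    (p : I → ℝ) (hp : ∑ i ∈ s, p i = 1) (hp0 : ∀ i ∈ s, 0 ≤ p i) :
    ∑' N, c N * ∫⁻ x, ∏ i ∈ s, f i N x ^ p i ∂(m N)
      ≤ ∏ i ∈ s, (∑' N, c N * ∫⁻ x, f i N x ∂(m N)) ^ p i := by
  have h1 : ∀ N, c N * ∫⁻ x, ∏ i ∈ s, f i N x ^ p i ∂(m N)
      ≤ c N * ∏ i ∈ s, (∫⁻ x, f i N x ∂(m N)) ^ p i := by
    intro N
    gcongr
    exact ENNReal.lintegral_prod_norm_pow_le s (fun i hi => hf i hi N) hp hp0
  exact (ENNReal.tsum_le_tsum h1).trans
    (tsum_holder s c (fun i N => ∫⁻ x, f i N x ∂(m N)) p hp hp0)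

/-- The case of equal exponents `1 / M` over a finite index type with `M` elements. -/
theorem tsum_lintegral_holder_equal {I : Type*} [Fintype I] [Nonempty I] {Om : ℕ → Type*}
    [∀ N, MeasurableSpace (Om N)] (m : ∀ N, Measure (Om N)) (c : ℕ → ℝ≥0∞)
    (f : I → ∀ N, Om N → ℝ≥0∞) (hf : ∀ i, ∀ N, AEMeasurable (f i N) (m N)) :
    ∑' N, c N * ∫⁻ x, ∏ i, f i N x ^ (1 / (Fintype.card I : ℝ)) ∂(m N)
      ≤ ∏ i, (∑' N, c N * ∫⁻ x, f i N x ∂(m N)) ^ (1 / (Fintype.card I : ℝ)) := by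
  have hcard : (0 : ℝ) < (Fintype.card I : ℝ) := by exact_mod_cast Fintype.card_pos
  apply tsum_lintegral_holder Finset.univ m c f (fun i _ N => hf i N)
    (fun _ => 1 / (Fintype.card I : ℝ))
  · rw [Finset.sum_const, Finset.card_univ, nsmul_eq_mul]
    field_simp
  · intro i _
    positivity

end Vale.Agent.H94
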